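import Vale.Agent.P105.Main

/-!
A parameter `l` in `(1/2, 1)` with `1/l` a quartic Salem number, hence not Pisot, whose Bernoulli
convolution is singular.
-/

open Vale.Agent.P105 in
/-- The Bernoulli convolution of some non-Pisot parameter in `(1/2, 1)` is singular. -/
theorem Vale.Agent.Results.P105.SingularSalem.result :
    ∃ l : ℝ, 1 / 2 < l ∧ l < 1 ∧ (l⁻¹) ^ 4 - (l⁻¹) ^ 3 - (l⁻¹) ^ 2 - l⁻¹ + 1 = 0 ∧
      IsIntegral ℤ l⁻¹ ∧ ¬ IsPisot l⁻¹ ∧ Singular l :=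
  exists_singular_not_pisot
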